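import Mathlib
import Vale.Agent.Lib.P057.Lower

open Vale.Agent.Lib.P057

namespace Vale.Agent.Results.P057.DyadicCriterion

/-- For each fixed `k ≥ 3`: (1) Erdős's conjecture for `k`-term progressions is equivalent to the
convergence of `∑ r_k(2^n) / 2^n`; (2) in that case the reciprocal sum of every set without
`k`-term progressions is at most `∑ r_k(2^n) / 2^n`, and (3) some such set of positive integers
has reciprocal sum at least one ninth of that series. -/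
theorem result (k : ℕ) (hk : 3 ≤ k) :
    ((∀ A : Set ℕ, (∀ a ∈ A, 0 < a) → ¬ Summable (fun a : A => (1 : ℝ) / (a : ℕ)) → HasAP k A)
      ↔ Summable (fun n : ℕ => (rk k (2 ^ n) : ℝ) / 2 ^ n)) ∧
    (Summable (fun n : ℕ => (rk k (2 ^ n) : ℝ) / 2 ^ n) →
      (∀ A : Set ℕ, ¬ HasAP k A →
        ∑' a : A, (1 : ℝ) / (a : ℕ) ≤ ∑' n : ℕ, (rk k (2 ^ n) : ℝ) / 2 ^ n) ∧
      (∃ A : Set ℕ, (∀ a ∈ A, 0 < a) ∧ ¬ HasAP k A ∧
        (∑' n : ℕ, (rk k (2 ^ n) : ℝ) / 2 ^ n) / 9 ≤ ∑' a : A, (1 : ℝ) / (a : ℕ))) := by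
  have hsub : ∀ A : Set ℕ, Summable (fun a : A => (1 : ℝ) / (a : ℕ)) ↔ Summable (recip A) :=
    fun A => summable_subtype_iff_indicator (f := fun a : ℕ => (1 : ℝ) / a) (s := A)
  have htsum : ∀ A : Set ℕ, ∑' a : A, (1 : ℝ) / (a : ℕ) = ∑' a, recip A a :=
    fun A => tsum_subtype A (fun a : ℕ => (1 : ℝ) / a)
  have hc : (fun n : ℕ => (rk k (2 ^ n) : ℝ) / 2 ^ n) = cseq k := rfl
  rw [hc]
  refine ⟨⟨fun h => ?_, fun h A _ hdiv => ?_⟩, fun h => ⟨fun A hAP => ?_, ?_⟩⟩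
  · by_contra hdiv
    obtain ⟨A, hpos, hAP, hA⟩ := exists_counterexample hk hdiv
    exact hAP (h A hpos (fun hs => hA ((hsub A).1 hs)))
  · by_contra hAP
    exact hdiv ((hsub A).2 (summable_recip k A hAP h).1)
  · rw [htsum A]
    exact (summable_recip k A hAP h).2
  · obtain ⟨A, hpos, hAP, hA⟩ := exists_large hk h
    exact ⟨A, hpos, hAP, by rw [htsum A]; exact hA⟩

end Vale.Agent.Results.P057.DyadicCriterion
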